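import Vale.Agent.N178B.Rings

/-!
Gersten's conjecture fails in every degree `n ≥ 3` (for one ring), in every dimension `d ≥ 3` and
in every residue characteristic `p`, and the element of the kernel is not a `p`-th power.
The rings are `V⟦X_0, …, X_{d-1}⟧ / (X_0 X_1 - ∑_{i<p} (1 - X_2)^{p i})`, where `V` is a discrete
valuation ring with uniformizer `p`. The elements in degree `n + 1` are obtained from those in
degree `n` by the product with a unit `u`: multiplication by `u` is an automorphism of the identity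
functor of `Q P(A)`, and so gives a loop of self-maps of the classifying space.
Here `K n R = π_{n+1}(B Q P(R), 0)` is Quillen's algebraic K-group, written multiplicatively.
-/

namespace Vale.Agent.Results.P178.A0EveryDegree

open Vale.Agent.P178.QK IsLocalRing

theorem result :
    (∀ (p : ℕ) [Fact p.Prime] (d : ℕ), 3 ≤ d →
      ∃ (A : Type) (_ : CommRing A) (_ : IsDomain A) (_ : IsRegularLocalRing A),
        ringKrullDim A = d ∧ CharZero A ∧ CharP (ResidueField A) p ∧
        (p : A) ∈ maximalIdeal A ^ 2 ∧ ∀ n : ℕ, 3 ≤ n →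
        ∃ α : K n A, K.map n (algebraMap A (FractionRing A)) α = 1 ∧ ∀ β : K n A, β ^ p ≠ α) ∧
    (∀ (p : ℕ) [Fact p.Prime] (V : Type) [CommRing V] [IsDomain V] [IsDiscreteValuationRing V]
      [IsAdicComplete (maximalIdeal V) V], maximalIdeal V = Ideal.span {(p : V)} →
      ∀ d : ℕ, 3 ≤ d →
      ∃ (A : Type) (_ : CommRing A) (_ : IsDomain A) (_ : IsRegularLocalRing A),
        IsAdicComplete (maximalIdeal A) A ∧ ringKrullDim A = d ∧ CharZero A ∧
        Nonempty (ResidueField A ≃+* ResidueField V) ∧ ∀ n : ℕ, 3 ≤ n → n ≤ d →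
        ∃ α : K n A, K.map n (algebraMap A (FractionRing A)) α = 1 ∧ ∀ β : K n A, β ^ p ≠ α) := by
  have key : ∀ (p : ℕ) [Fact p.Prime] (d : ℕ), 3 ≤ d →
      ∃ (A : Type) (_ : CommRing A) (_ : IsDomain A) (_ : IsRegularLocalRing A),
        ringKrullDim A = d ∧ CharZero A ∧ CharP (ResidueField A) p ∧
        (p : A) ∈ maximalIdeal A ^ 2 ∧ ∀ n : ℕ, 3 ≤ n → Vale.Agent.N178B.Bad p n A := by
    intro p _ d hd
    obtain ⟨r, rfl⟩ := Nat.exists_eq_add_of_le' hd
    obtain ⟨V, _, _, _, t, δ, hV, h1, h2, h3⟩ := Vale.Agent.N178B.exists_dvr p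
    obtain ⟨h4, h5⟩ := Vale.Agent.N178.reg_RA (r := r) hV
    have h6 := Vale.Agent.P271.H879.Reg.isDomain (Vale.Agent.N178.RA p r V)
    refine ⟨_, inferInstance, h6, h4, h5, Vale.Agent.N178.charZero_RA hV,
      Vale.Agent.N178.charP_RA hV, Vale.Agent.N178.p_sq hV, fun n hn => ?_⟩
    obtain ⟨m, rfl⟩ := Nat.exists_eq_add_of_le' hn
    exact Vale.Agent.N178B.bad_RA (s := m) hV (fun i => t i) (fun i => h1 i) (fun i => δ i)
      (fun i => h2 i) (fun i l => (h3 i l).trans (if_congr Fin.val_inj rfl rfl))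
      (Nat.le_add_left m r)
  refine ⟨key, fun p _ V _ _ _ _ hV d hd => ?_⟩
  · obtain ⟨r, rfl⟩ := Nat.exists_eq_add_of_le' hd
    obtain ⟨h4, h5⟩ := Vale.Agent.N178.reg_RA (r := r) hV
    have h6 := Vale.Agent.P271.H879.Reg.isDomain (Vale.Agent.N178.RA p r V)
    have h7 := Vale.Agent.P022D.L2b.isAdicCompleteV (σ := Fin (r + 3)) (V := V) inferInstance
    refine ⟨_, inferInstance, h6, h4, Vale.Agent.N178.complete_quot _, h5,
      Vale.Agent.N178.charZero_RA hV, Vale.Agent.N178.res_RA hV, fun n hn hn' => ?_⟩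
    obtain ⟨m, rfl⟩ := Nat.exists_eq_add_of_le' hn
    exact Vale.Agent.N178B.bad_RA (s := 0) hV Fin.elim0 (fun i => i.elim0) Fin.elim0
      (fun i => i.elim0) (fun i => i.elim0) (by omega)

end Vale.Agent.Results.P178.A0EveryDegree
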